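import Vale.Agent.P355.H947.UC.CCA.D

namespace Vale.Agent.P355.H947.UC.CCA

open Vale.Agent.P355 Vale.Agent.P355.H147 Vale.Agent.P355.H998.E

theorem c0 : CX 5 0 0 D cls mv 0 (Nat.add 0 3) := CX.ck 0 3 (by decide +kernel)

theorem c3 : CX 5 0 0 D cls mv 3 (Nat.add 3 3) := CX.ck 3 3 (by decide +kernel)

theorem c6 : CX 5 0 0 D cls mv 6 (Nat.add 6 3) := CX.ck 6 3 (by decide +kernel)

theorem c9 : CX 5 0 0 D cls mv 9 (Nat.add 9 3) := CX.ck 9 3 (by decide +kernel)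

theorem c12 : CX 5 0 0 D cls mv 12 (Nat.add 12 4) := CX.ck 12 4 (by decide +kernel)

theorem c16 : CX 5 0 0 D cls mv 16 (Nat.add 16 4) := CX.ck 16 4 (by decide +kernel)

theorem c20 : CX 5 0 0 D cls mv 20 (Nat.add 20 5) := CX.ck 20 5 (by decide +kernel)

theorem c25 : CX 5 0 0 D cls mv 25 (Nat.add 25 5) := CX.ck 25 5 (by decide +kernel)

theorem c30 : CX 5 0 0 D cls mv 30 (Nat.add 30 6) := CX.ck 30 6 (by decide +kernel)

theorem c36 : CX 5 0 0 D cls mv 36 (Nat.add 36 9) := CX.ck 36 9 (by decide +kernel)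

theorem c45 : CX 5 0 0 D cls mv 45 (Nat.add 45 18) := CX.ck 45 18 (by decide +kernel)

theorem cm0 : CX 5 0 0 D cls mv 0 63 := (((c0).trans (c3)).trans ((c6).trans ((c9).trans (c12)))).trans (((c16).trans ((c20).trans (c25))).trans ((c30).trans ((c36).trans (c45))))

end Vale.Agent.P355.H947.UC.CCA
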