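import Vale.Agent.P355.H947.UC.CCA.Mv
import Vale.Agent.P355.H947.UC.CCA.E0

namespace Vale.Agent.P355.H947.UC.CCA

open Vale.Agent.P355 Vale.Agent.P355.H147 Vale.Agent.P355.H998.E

def EL : List ℕ := E0

def D : ED := ⟨2, 40, T, G, XL, EL, BP⟩

theorem ck : D.ck 5 0 0 = true := by decide +kernel

theorem hnk : D.XL.length = 63 := by decide +kernel

end Vale.Agent.P355.H947.UC.CCA
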